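import Vale.Agent.Lib.P235.UB.FinalB

open MeasureTheory

namespace Vale.Agent.Results.P235.AAA_tw3

/-- **Treewidth three.** The shortest path metric of a finite connected graph of treewidth at most
three, with any positive edge lengths, embeds into a space `L_1(Ω, μ)` with distortion at most
`10 ^ 8`. The bound does not depend on the graph or on the lengths. -/
theorem result {V : Type} [Fintype V] [DecidableEq V] {G : SimpleGraph V} {ℓ : Sym2 V → ℝ}
    (hc : G.Connected) (htw : Vale.Agent.Lib.P235.TreewidthLE G 3)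
    (hℓ : ∀ e ∈ G.edgeSet, 0 < ℓ e) :
    ∃ (n : ℕ) (g : V → Lp ℝ 1 (Measure.count : Measure (Fin n))), ∀ x y : V,
      Vale.Agent.Lib.P235.UB.pathDist G ℓ x y ≤ ‖g x - g y‖ ∧
      ‖g x - g y‖ ≤ 100000000 * Vale.Agent.Lib.P235.UB.pathDist G ℓ x y :=
  Vale.Agent.Lib.P235.UB.lp_embedding hc htw hℓ

end Vale.Agent.Results.P235.AAA_tw3
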